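import Vale.Agent.P269S.C
import Vale.Agent.P269S.H

/-!
# P269: Gromov-Witten invariants (definitions only)

A stable map `C → X ⊆ P^(N-1)` is a triple `(C, L, u)`, `u ∈ Γ(L)^N`. Put `A = ω^3 L^9` (very
ample), `V = Γ(A)`. The triples `(C, L, ũ)`, `ũ ∈ Hom(V, Γ(L A))^N`, form a smooth stack in
which the stable maps (`ũ(s) = u s`) are the zero scheme `Z` of
`S = (ũ(s) s' - ũ(s') s, f_j(ũ(s)))`, a section of a vector bundle `W`. The normal cone of `Z`,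
the limit of the graphs of `t S`, lies in the obstruction bundle `F ⊆ W|Z`, and the virtual class
is its intersection with the zero section of `F` (Li-Tian, Behrend-Fantechi), computed here with
a Thom form of `F`. With marked points the class is pulled back.
-/

noncomputable section

namespace Vale.Agent.P269E

open Set Filter MvPolynomial Matrix P269S
open scoped Topology

variable {L J E E' X X' : Type} {k N v c : ℕ}

/-- The bundles of a family of triples `(C, L, ũ)` with total space `X`: on the open sets `U i`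
(indexed by the points of `X`) frames `D i = k i j D j` of the dual of the relative dualizing
sheaf `ω`, the cocycle `g` of `L`, a frame `σ` of `V`, and `u a α = ũ_α(σ a)`. -/
structure Th (N v : ℕ) (X : Type) where
  U : X → Set X
  D : X → Df X
  k : X → X → X → ℂ
  g : X → X → X → ℂ
  σ : X → X → Matrix (Fin v) Unit ℂ
  u : X → X → Matrix (Fin v) (Fin N) ℂ

/-- `τ` is a section over `S` of the sum of the `ω^a L^e`, `(a, e) = w x` (`H` = holomorphic). -/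
def Th.Sec (T : Th N v X) (S : Set X) (H : (X → ℂ) → X → Prop) (w : J → ℕ × ℕ)
    (τ : X → X → J → ℂ) : Prop :=
  ∀ x i, ∀ p ∈ T.U i ∩ S, H (τ i · x) p ∧
    ∀ j, p ∈ T.U j → τ i p x = T.k i j p ^ (w x).1 * T.g i j p ^ (w x).2 * τ j p x

/-- The rows of `τ` are a holomorphic frame of the direct image of this sum. -/
def Frame (C : Fam L E X) (T : Th N v X) (w : J → ℕ × ℕ) (τ : X → X → Matrix (Fin k) J ℂ) : Prop :=
  (∀ x, T.Sec univ C.hol w (τ · · x)) ∧ ∀ b ∈ C.B, ∀ s, T.Sec (C.fib b) (FH C) w s →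
    ∃! y, ∀ i, ∀ p ∈ T.U i ∩ C.fib b, s i p = vecMul y (τ i p)

/-- `Φ` is an isomorphism of triples, and `H i j p` is the induced map
`Hom(V', L' A') → Hom(V, L A)` at `p`. -/
def TI (C : Fam L E X) (T : Th N v X) (b : E) (C' : Fam L E' X') (T' : Th N v X') (b' : E')
    (Φ : X → X') (H : X → X' → X → Matrix (Fin v) (Fin v) ℂ) : Prop :=
  Iso C b C' b' Φ ∧ ∃ G : Matrix (Fin v) (Fin v) ℂ,
    ∀ i j, ∀ p ∈ T.U i ∩ C.fib b, Φ p ∈ T'.U j → ∃ κ γ : ℂ,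
      (∀ f h, C'.hol f (Φ p) → C.hol h p → EqOn h (f ∘ Φ) (C.fib b) →
        T.D i h p = κ * T'.D j f (Φ p)) ∧
      T.σ i p = (κ ^ 3 * γ ^ 9) • (G * T'.σ j (Φ p)) ∧ H i j p = (κ ^ 3 * γ ^ 10) • G ∧
      T.u i p = H i j p * T'.u j (Φ p)

/-- The components of `W`. -/
abbrev Ix (N v c : ℕ) : Type := (Fin N × Fin v × Fin v) ⊕ (Fin c × Fin v)

variable (f : Fin c → MvPolynomial (Fin N) ℂ)

/-- The value of `S` at a point of the curve. -/
def Sv (σ : Matrix (Fin v) Unit ℂ) (u : Matrix (Fin v) (Fin N) ℂ) : Ix N v c → ℂ :=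
  Sum.elim (fun x => u x.2.1 x.1 * σ x.2.2 () - u x.2.2 x.1 * σ x.2.1 ())
    fun x => eval (u x.2) (f x.1)

/-- The locus of the maps to the zero set of the `f j`. -/
def Z (C : Fam L E X) (T : Th N v X) (b : E) : Prop :=
  b ∈ C.B ∧ ∀ i, ∀ p ∈ T.U i ∩ C.fib b, ∀ x, Sv f (T.σ i p) (T.u i p) x = 0

variable [NormedAddCommGroup E] [NormedSpace ℂ E] [NormedAddCommGroup E'] [NormedSpace ℂ E']

/-- Near `p`, `D` is a unit times `x ∂/∂x - y ∂/∂y`: a frame of the dual of `ω`. -/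
def Gen (C : Fam L E X) (D : Df X) (p : X) : Prop :=
  letI := C.top
  ∃ U x y t h, let φ := fun q => (C.π q, x q, y q)
    p ∈ U ∧ C.IsChart U x y t ∧ C.hol h p ∧ h p ≠ 0 ∧ ∀ᶠ q in 𝓝 p, ∀ f G,
      AnalyticAt ℂ G (φ q) → f =ᶠ[𝓝 q] G ∘ φ → D f q = h q * fderiv ℂ G (φ q) (0, x q, -y q)

/-- `(C, T)` is a family of triples of genus `g`, `V` and `ũ` have no base point, and the maps to
the zero set of the `f j` are stable. -/
def Ok (g : ℕ) (C : Fam L E X) (T : Th N v X) : Prop :=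
  Pre C ∧ (∀ p, ∃ i, p ∈ T.U i ∧ T.u i p ≠ 0 ∧ T.σ i p ≠ 0) ∧
  (∀ i, IsOpen[C.top] (T.U i) ∧ ∀ p ∈ T.U i, Gen C (T.D i) p ∧ ∀ j, p ∈ T.U j →
    C.hol (T.k i j) p ∧ C.hol (T.g i j) p ∧ T.g i j p ≠ 0 ∧
    (∀ f, C.hol f p → T.D i f p = T.k i j p * T.D j f p) ∧
    ∀ l, p ∈ T.U l → T.g i j p * T.g j l p = T.g i l p) ∧
  (∀ b ∈ C.B, ∃ e : Fin g → Df X, Bas C b e) ∧ Frame C T (fun _ => (3, 9)) T.σ ∧
  (∀ a, T.Sec univ C.hol (fun _ => (3, 10)) (T.u · · a)) ∧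
  ∀ b, Z f C T b → Stab C b fun D => ∀ i, ∀ p ∈ T.U i ∩ C.fib b, ∀ a α β,
    D (T.u i · a α) p * T.u i p a β = D (T.u i · a β) p * T.u i p a α

/-- `P` is a family of marked curves with a contraction `κ` to the curves of `C`, over `β`:
`κ` is holomorphic, an isomorphism on the general fibre, and a stable map. -/
def Mk (C : Fam Empty E X) (P : Fam L E' X') (β : E' → E) (κ : X' → X) : Prop :=
  Pre P ∧ Continuous[P.top, C.top] κ ∧
  (∀ p, C.π (κ p) = β (P.π p) ∧ ∀ f, C.hol f (κ p) → P.hol (f ∘ κ) p) ∧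
  P.B ⊆ closure {b ∈ P.B | BijOn κ (P.fib b) (C.fib (β b))} ∧ ∀ b ∈ P.B, AnalyticAt ℂ β b ∧
    Stab P b fun D => ∀ p ∈ P.fib b, ∀ f, C.hol f (κ p) → D (f ∘ κ) p = 0

/-- `(C, T)` is versal along `Z`. -/
def Ver (g : ℕ) (C : Fam L E X) (T : Th N v X) : Prop :=
  ∀ b, Z f C T b → ∀ k Y (C' : Fam L (Cm k) Y) T', Ok f g C' T' →
    ∀ t ∈ C'.B, ∀ Φ₀, Exists (TI C' T' t C T b Φ₀) → ∃ β Φ, AnalyticAt ℂ β t ∧ β t = b ∧
      EqOn Φ₀ Φ (C'.fib t) ∧ ∀ᶠ s in 𝓝 t, (∀ p ∈ C'.fib s, @ContinuousAt _ _ C'.top C.top Φ p) ∧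
        Exists (TI C' T' s C T (β s) Φ)

/-- The pull back of a differential form. -/
def pu (m k : ℕ) (u : Cm k → Λ k) (f : Cm m → Cm k) (z : Cm m) : Λ m := pb f z (u (f z))

/-- The product `a ∏ c_i ^ μ_i φ_i`. -/
def Pd (A : Type) [Ring A] (n : ℕ) (a : A) (c : Fin n → A) (μ : Fin n → ℕ) (φ : Fin n → A) : A :=
  a * (List.ofFn fun i => c i ^ μ i * φ i).prod

variable {M ι : Type} {r n : ℕ} [TopologicalSpace M] [ChartedSpace (Cm r) M]

/-- `F` are the descendant invariants `∫ ∏ ψ_i^(μ_i) ev_i^* φ_(a_i)` over the virtual class of the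
stack of stable maps of genus `g` with `n` marked points to the complete intersection `M` (given
by the data `V`); `v = dim Γ(A)`, `δ` is the virtual dimension without marked points. They are computed in a finite atlas. A chart `l`: triples
`(C, T)` over `ℂ^m`, a frame `τ` of `W` (rank `w`), the coordinates `S` of the section, an
extension `Φ` of the Thom form of `F`; marked curves `P` over `ℂ^k`, coordinates `z i` at the
marked points, `h i = |dz_i|^2`, extensions `ε i` of the map to `M` in the charts `e i`, a cut off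
`ρ`. `R`: isomorphic points of `F` (the elements of `W` over `Z` that are at each point of the
curve in the image of the linearisation of `S`). `(C, T)` is versal along `Z` and has the
dimension of the stack (`δ` plus the rank of `F`), so it is etale; `P` is an open part of the space
of all marked curves over `C`. The Thom forms and the metrics on the cotangent lines are compatible
with isomorphisms, the cut offs are a partition of unity on the stack. -/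
structure Atl (V : CI c N M) (φ : ι → Fm r M) (g v : ℕ) (δ : ℤ) (F : (Fin n → ℕ × ι) → ℂ) where
  a : ℕ
  m : Fin a → ℕ
  w : Fin a → ℕ
  k : Fin a → ℕ
  X : Fin a → Type
  Y : Fin a → Type
  C : ∀ l, Fam Empty (Cm (m l)) (X l)
  T : ∀ l, Th N v (X l)
  τ : ∀ l, X l → X l → Matrix (Fin (w l)) (Ix N v c) ℂ
  S : ∀ l, Cm (m l) → Cm (w l)
  Φ : ∀ l, Cm (m l + w l) → Λ (m l + w l)
  P : ∀ l, Fam (Fin n) (Cm (k l)) (Y l)
  β : ∀ l, Cm (k l) → Cm (m l)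
  κ : ∀ l, Y l → X l
  z : ∀ l, Fin n → Y l → ℂ
  h : ∀ l, Fin n → Cm (k l) → ℝ
  e : Fin a → Fin n → Chart r M
  ε : ∀ l, Fin n → X l → Cm r
  ρ : ∀ l, Cm (k l) → ℝ
  R : ∀ l, Cm (m l + w l) → ∀ l', Cm (m l' + w l') → Prop
  hR : ∀ l b y l' b' y', R l (Fin.append b y) l' (Fin.append b' y') ↔
    Z V.f (C l) (T l) b ∧ Z V.f (C l') (T l') b' ∧
    ∃ Ψ H, TI (C l) (T l) b (C l') (T l') b' Ψ H ∧ ∀ i j, ∀ p ∈ (T l).U i ∩ (C l).fib b,
      Ψ p ∈ (T l').U j → ∃ ξ : Matrix (Fin v) (Fin N) ℂ, ∀ x,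
        vecMul y (τ l i p) x = deriv (fun s : ℂ =>
          Sv V.f ((T l).σ i p) ((T l).u i p + s • (H i j p * ξ)) x) 0 ∧
        vecMul y' (τ l' j (Ψ p)) x = deriv (fun s : ℂ =>
          Sv V.f ((T l').σ j (Ψ p)) ((T l').u j (Ψ p) + s • ξ) x) 0
  ok : ∀ l, k l = m l + n ∧ Ok V.f g (C l) (T l) ∧ Ver V.f g (C l) (T l) ∧
    Mk (C l) (P l) (β l) (κ l) ∧
    Frame (C l) (T l) (Sum.elim (fun _ => (6, 19)) fun x => V.dg x.1 • (3, 10)) (τ l) ∧
    (∀ b ∈ (C l).B, ∀ i, ∀ p ∈ (T l).U i ∩ (C l).fib b,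
      vecMul (S l b) (τ l i p) = Sv V.f ((T l).σ i p) ((T l).u i p)) ∧
    (∀ b ∈ (P l).B, ∀ b' Ψ, Iso (P l) b (P l) b' Ψ → EqOn (κ l ∘ Ψ) (κ l) ((P l).fib b) → b = b') ∧
    Continuous (ρ l) ∧ IsCompact (tsupport (ρ l)) ∧ tsupport (ρ l) ⊆ (P l).B
  thom : ∀ l, ∃ (s : ℕ) (o : ℝ), m l = δ + s ∧ ∀ b ∈ (C l).B, (∀ y, let q := Fin.append b y
      Dg (2 * s) (Φ l q) ∧ Sm (Φ l) q ∧ ∀ i, o ≤ ‖y i‖ → Φ l q = 0) ∧ (Z V.f (C l) (T l) b →
    ∃ j : Matrix (Fin (w l)) (Fin s) ℂ, Function.Injective j.mulVec ∧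
      (∀ y, y ∈ range j.mulVec ↔ R l (Fin.append b y) l (Fin.append b y)) ∧
      It univ (fun x => top (pu s _ (Φ l) (fun x => Fin.append b (j.mulVec x)) x)) = 1)
  cl : ∀ l l' s γ γ' t, AnalyticAt ℂ γ t → AnalyticAt ℂ γ' t →
    (∀ᶠ u in 𝓝 t, R l (γ u) l' (γ' u)) →
      d (pu s _ (Φ l) γ) t = 0 ∧ pu s _ (Φ l) γ t = pu s _ (Φ l') γ' t
  pts : ∀ l i, ∀ b ∈ (P l).B, let p := (P l).s i b; let x := κ l p
    (P l).hol (z l i) p ∧ Co (P l) (z l i) p ∧ ContDiffAt ℝ (⊤ : ℕ∞) (h l i) b ∧ 0 < h l i b ∧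
    (∀ a, (C l).hol (ε l i · a) x) ∧ ∃ y, At (e l i) y ∧ e l i y = ε l i x ∧
    (Z V.f (C l) (T l) (β l b) → (∀ j a, x ∈ (T l).U j → ∃ s : ℂ, ∀ α,
      (T l).u j x a α = s * rp N (V.pt y) α) ∧ ∀ l' b' Ψ Ψ' H s, Iso (P l) b (P l') b' Ψ →
        TI (C l) (T l) (β l b) (C l') (T l') (β l' b') Ψ' H →
        EqOn (κ l' ∘ Ψ) (Ψ' ∘ κ l) ((P l).fib b) → Dr (P l) (z l i) (z l' i ∘ Ψ) p s →
          h l i b = ‖s‖ ^ 2 * h l' i b')
  one : ∀ s s' X' Y' (C' : Fam Empty (Cm s) X') T' (P' : Fam (Fin n) (Cm s') Y') β' κ',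
    Ok V.f g C' T' → Mk C' P' β' κ' → ∀ b ∈ P'.B, Z V.f C' T' (β' b) →
      ∑ l, ∑ᶠ x, cnt (P'.fib b) (fun Ψ => Iso P' b (P l) x Ψ ∧ ∃ Ψ', Exists (TI C' T' (β' b)
        (C l) (T l) (β l x) Ψ') ∧ EqOn (κ l ∘ Ψ) (Ψ' ∘ κ') (P'.fib b)) * ρ l x = 1
  gw : ∀ μ, F μ = limUnder atTop fun t : ℝ => ∑ l, It (P l).B fun b => ρ l b * top (Pd (Λ _) n
    (pu _ _ (pu _ _ (Φ l) fun a => Fin.append a fun i => t * S l a i) (β l) b)
    (fun i => c1 (h l i) b) (fun i => (μ i).1)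
    fun i => pu _ r (φ (μ i).2 (e l i)) (fun a => ε l i (κ l ((P l).s i a))) b)

/-- `F g e` are the descendant invariants `⟨τ_{m_1}(φ_{a_1}) ⋯ τ_{m_n}(φ_{a_n})⟩_{g,e}`; in degree
`e > 0` we have `dim Γ(A) = 5 g - 5 + 9 e`. -/
def GW (V : CI c N M) (φ : ι → Fm r M) (Y : P269A.Coh ι)
    (I : ℕ → List ℕ → MvPolynomial ℕ ℂ → ℂ) (F : ℕ → ℕ → List (ℕ × ι) → ℂ) : Prop :=
  ∀ g, F g 0 = Y.N0 I g ∧ ∀ e n, 0 < e → Nonempty (Atl V φ g (5 * g + 9 * e - 5)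
    ((3 - r) * (g - 1) + V.idx * e) fun μ : Fin n → ℕ × ι => F g e (List.ofFn μ))

end Vale.Agent.P269E
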