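import Vale.Agent.P269E.Van
import Vale.Agent.P269S.HB
import Vale.Agent.P269S.CB
import Vale.Agent.P269ZV.Br

/-!
# P269E: the compact statement from the blocks
-/

open scoped Manifold ContDiff

namespace Vale.Agent.P269E

open P269S P269ZV

theorem final_of (hA : P269Z.BA) (hC : P269Z.BC) (hH : P269Z.BH)
    (r c N : ℕ) (M ι : Type) [TopologicalSpace M] [ChartedSpace (Cm r) M]
    [IsManifold 𝓘(ℂ, Cm r) ω M] [T2Space M] [CompactSpace M] [ConnectedSpace M]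
    [Fintype ι] [DecidableEq ι] (X : CI c N M) (φ : ι → Fm r M) (Y : P269A.Coh ι)
    (I : ℕ → List ℕ → MvPolynomial ℕ ℂ → ℂ) (G : ℕ → ℕ → List (ℕ × ι) → ℂ) :
    X.Ok φ Y → Hodge I → GW X φ Y I G → 3 ≤ r →
    let e := fun x : ℕ × ι => Y.deg x.2
    let cf := fun d j (x : PowerSeries (LaurentSeries ℂ)) => (PowerSeries.coeff d x).coeff j
    let L := L Y fun j c => PowerSeries.C (HahnSeries.single j c)
    ∃ F Z, (∀ d w, (∀ j < -1, cf d j (F w) = 0) ∧ ∀ g : ℕ, cf d (g - 1) (F w) = G g d w.reverse) ∧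
      (∀ d j, IsExp e (cf d j) F Z) ∧
      (∀ n, ∃ ζ, (∀ w, L n Z w = mul e ζ Z w) ∧ ∀ d w, (∀ j < -1, cf d j (ζ w) = 0) ∧
        ∀ g : ℕ, d = 0 ∨ (3 - r : ℤ) * (g - 1) + X.idx * d < 0 → cf d (g - 1) (ζ w) = 0) ∧
      (X.idx < 3 - r → ∀ n w, L n Z w = 0) := by
  intro hX hI hG hr
  have k := vir Y X.idx G (hA ι Y I G X.idx (bh_s hH hX hr) (hodge_ok hC hI) (hX.dim.2 ▸ hr)
    (fun g => (hG g).1) (fun g d hd => (bd hX hG g d hd).1) fun g d l hd => (bd hX hG g d hd).2 l)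
  rw [hX.dim.2] at k
  exact k

end Vale.Agent.P269E
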