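import Vale.Agent.P269E.D
import Vale.Agent.P269S.FB
import Vale.Agent.P269D.Van

/-!
# P269E: the vanishing of the invariants of positive degree for degree reasons
-/

noncomputable section

namespace Vale.Agent.P269E

open Set Filter MeasureTheory ExteriorAlgebra Module P269S P269D
open scoped Topology ContDiff

theorem fac {L X Y : Type} {m k r : ℕ} {C : Fam Empty (Fin m → ℂ) X} {P : Fam L (Fin k → ℂ) Y}
    {β : (Fin k → ℂ) → Fin m → ℂ} {κ : Y → X} (hC : P269S.Pre C) (hP : Mk C P β κ) (i : L)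
    {ε : X → Fin r → ℂ} (hε : ∀ b ∈ P.B, ∀ a, C.hol (ε · a) (κ (P.s i b))) : ∀ᵐ b, b ∈ P.B →
    Fac (fderiv ℝ β b) (fderiv ℝ (fun a => ε (κ (P.s i a))) b) := by
  let _ := C.top
  let _ := P.top
  obtain ⟨⟨hB, -, -, -, hs⟩, hc, hh, -, hβ⟩ := hP
  set ξ : (Fin k → ℂ) → X := fun a => κ (P.s i a) with hξ
  have hx : ∀ b ∈ P.B, ContinuousAt ξ b := fun b hb =>
    hc.continuousAt.comp ((hs b hb).2.2 _ ⟨i, rfl⟩).2.1
  have hπ : ∀ b ∈ P.B, C.π (ξ b) = β b := fun b hb => by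
    rw [hξ, (hh _).1, ((hs b hb).2.2 _ ⟨i, rfl⟩).1]
  have ha : ∀ b ∈ P.B, ∀ f, C.hol f (ξ b) → AnalyticAt ℂ (fun a => f (ξ a)) b :=
    fun b hb f hf => ((hs b hb).2.2 _ ⟨i, rfl⟩).2.2.1 _ ((hh _).2 f hf)
  rw [ae_iff]
  refine measure_null_of_locally_null _ fun b0 hb0 => ?_
  have hb0 : b0 ∈ P.B := (Classical.not_imp.1 hb0).1
  obtain ⟨U, x, y, t, hU, hUo, -, hV, hhol⟩ := (hC.2.2.2.1 (ξ b0)).2
  set O := interior (P.B ∩ ξ ⁻¹' U)
  have hO : O ∈ 𝓝 b0 := interior_mem_nhds.2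
    (inter_mem (hB.mem_nhds hb0) (hx b0 hb0 (hUo.mem_nhds hU)))
  have hOB : ∀ b ∈ O, b ∈ P.B ∧ ξ b ∈ U := fun b hb =>
    interior_subset (s := P.B ∩ ξ ⁻¹' U) hb
  have hX : ∀ b ∈ O, DifferentiableAt ℝ (fun a => x (ξ a)) b := fun b hb =>
    (ha b (hOB b hb).1 x (((hhol _ (hOB b hb).2).2 x).2 ⟨fun w => w.2.1,
      analyticAt_fst.comp analyticAt_snd, Eventually.of_forall fun _ => rfl⟩)).differentiableAt
      |>.restrictScalars ℝ
  have hY : ∀ b ∈ O, DifferentiableAt ℝ (fun a => y (ξ a)) b := fun b hb =>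
    (ha b (hOB b hb).1 y (((hhol _ (hOB b hb).2).2 y).2 ⟨fun w => w.2.2,
      analyticAt_snd.comp analyticAt_snd, Eventually.of_forall fun _ => rfl⟩)).differentiableAt
      |>.restrictScalars ℝ
  have hxy : ∀ b ∈ O, x (ξ b) * y (ξ b) = t (β b) := fun b hb => by
    obtain ⟨W, -, hW⟩ := (hV U subset_rfl).1 hUo
    have : _ ∈ {w ∈ W | w.2.1 * w.2.2 = t w.1} := hW ▸ mem_image_of_mem _ (hOB b hb).2
    rw [← hπ b (hOB b hb).1]
    exact this.2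
  refine ⟨_, inter_mem_nhdsWithin _ hO, measure_eq_zero_iff_ae_notMem.2 ?_⟩
  filter_upwards [ae_fd isOpen_interior hX, ae_fd isOpen_interior hY] with b h1 h2 hb
  refine hb.1 fun hbB => ?_
  have hbO : b ∈ O := hb.2
  choose G hG hG' using fun a => ((hhol _ (hOB b hbO).2).2 _).1 (hε b hbB a)
  have dβ : DifferentiableAt ℝ β b := (hβ b hbB).1.differentiableAt.restrictScalars ℝ
  have dH := dβ.hasFDerivAt.prodMk ((hX b hbO).hasFDerivAt.prodMk (hY b hbO).hasFDerivAt)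
  have dG : DifferentiableAt ℝ (fun w a => G a w) (β b, x (ξ b), y (ξ b)) :=
    differentiableAt_pi.2 fun a => by
      rw [← hπ b hbB]
      exact (hG a).differentiableAt.restrictScalars ℝ
  have e : (fun a => ε (ξ a)) =ᶠ[𝓝 b]
      (fun w a => G a w) ∘ fun a => (β a, x (ξ a), y (ξ a)) := by
    filter_upwards [(hx b hbB).eventually (eventually_all.2 hG'), hB.mem_nhds hbB] with a k1 k2
    funext j
    rw [Function.comp, ← hπ a k2]
    exact k1 j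
  rw [e.fderiv_eq, (dG.hasFDerivAt.comp b dH).fderiv]
  have dt : DifferentiableAt ℝ t (β b) :=
    (hπ b hbB ▸ (hhol _ (hOB b hbO).2).1).differentiableAt.restrictScalars ℝ
  have e2 : (fun a => x (ξ a) * y (ξ a)) =ᶠ[𝓝 b] t ∘ β := by
    filter_upwards [isOpen_interior.mem_nhds hbO] with a k using hxy a k
  have e3 := (((hX b hbO).hasFDerivAt.mul (hY b hbO).hasFDerivAt).congr_of_eventuallyEq
    e2.symm).unique (dt.hasFDerivAt.comp b dβ.hasFDerivAt)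
  refine fac_of _ _ _ _ (fderiv ℝ t (β b)) (x (ξ b)) (y (ξ b))
    (fun w => congrArg (fun A => A w) e3) ?_
  by_cases k1 : x (ξ b) = 0
  · by_cases k2 : y (ξ b) = 0
    · exact Or.inr (Or.inr ⟨h1 hbO k1, h2 hbO k2⟩)
    · exact Or.inr (Or.inl k2)
  · exact Or.inl k1

theorem base_mem {L E E' X Y : Type} [NormedAddCommGroup E] [NormedSpace ℂ E]
    [NormedAddCommGroup E'] [NormedSpace ℂ E'] {C : Fam Empty E X} {P : Fam L E' Y}
    {β : E' → E} {κ : Y → X} (hC : P269S.Pre C) (hP : Mk C P β κ) {b : E'} (hb : b ∈ P.B) :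
    β b ∈ C.B := by
  obtain ⟨p, hp⟩ := (hP.1.2.2.2.2 b hb).1.1
  have e : P.π p = b := hp
  rw [← e, ← (hP.2.2.1 p).1]
  exact (hC.2.2.2.1 _).1

/-- the algebraic core of the vanishing -/
theorem van_alg {m k r n w s : ℕ} {β : (Fin k → ℂ) → Fin m → ℂ} {b : Fin k → ℂ}
    {γ : (Fin m → ℂ) → Fin w → ℂ} {Φ : P269F.Λ (Fin w → ℂ)} (hΦ : Φ ∈ ⋀[ℂ]^(2 * s) _)
    (c : Fin n → P269F.Λ (Fin k → ℂ)) {ε : Fin n → (Fin k → ℂ) → Fin r → ℂ}
    {u : Fin n → P269F.Λ (Fin r → ℂ)} {o : Fin n → ℕ} (hu : ∀ i, u i ∈ ⋀[ℂ]^(o i) _)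
    (hf : ∀ i, Fac (fderiv ℝ β b) (fderiv ℝ (ε i) b)) (hd : 2 * m < 2 * s + ∑ i, (o i - 2)) :
    P269F.pb β b (P269F.pb γ (β b) Φ) *
      (List.ofFn fun i => c i * P269F.pb (ε i) b (u i)).prod = 0 := by
  have := dual_fin (E := Fin k → ℂ)
  have h0 : Inv (LinearMap.range (pre (fderiv ℝ β b))) _ (2 * s) :=
    ⟨_, 2 * s, 1, _, le_rfl, map_pw _ (map_ext (pre (fderiv ℝ γ (β b))) hΦ), (one_mul _).symm,
      le_rfl⟩
  have h1 := Inv.prod c _ o (fun i => (hf i).mem (hu i)) h0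
  have h2 := pre_le (fderiv ℝ β b)
  rw [finrank_real_of_complex, finrank_fintype_fun_eq_card, Fintype.card_fin] at h2
  exact h1.zero (by omega)

/-- the algebraic core of the parity statement -/
theorem even_alg {m k r n w s : ℕ} {β : (Fin k → ℂ) → Fin m → ℂ} {b : Fin k → ℂ}
    {γ : (Fin m → ℂ) → Fin w → ℂ} {Φ : P269F.Λ (Fin w → ℂ)} (hΦ : Φ ∈ ⋀[ℂ]^(2 * s) _)
    {c : Fin n → P269F.Λ (Fin k → ℂ)} (hc : ∀ i, c i ∈ ⋀[ℂ]^2 _) (μ : Fin n → ℕ)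
    {ε : Fin n → (Fin k → ℂ) → Fin r → ℂ}
    {u : Fin n → P269F.Λ (Fin r → ℂ)} {o : Fin n → ℕ} (hu : ∀ i, u i ∈ ⋀[ℂ]^(o i) _)
    (hd : ¬Even (∑ i, o i)) : P269F.top k (P269F.pb β b (P269F.pb γ (β b) Φ) *
      (List.ofFn fun i => c i ^ μ i * P269F.pb (ε i) b (u i)).prod) = 0 := by
  refine top_deg (ext_mul (map_ext _ (map_ext _ hΦ)) (prod_ext _
    (fun i => 2 * μ i + o i) fun i => ext_mul (ext_pow (hc i) _) (map_ext _ (hu i)))) fun e => hd ?_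
  rw [Finset.sum_add_distrib, ← Finset.mul_sum] at e
  exact ⟨k - s - ∑ i, μ i, by omega⟩

variable {c N r v n g : ℕ} {M ι : Type} [TopologicalSpace M] [ChartedSpace (Cm r) M] [Fintype ι]
  {V : CI c N M} {φ : ι → Fm r M} {Y : P269A.Coh ι} {δ : ℤ} {F : (Fin n → ℕ × ι) → ℂ}

theorem Atl.deg (A : Atl V φ g v δ F) (h : V.Ok φ Y) (a : ι) (l : Fin A.a) (i : Fin n)
    {b : Cm (A.k l)} (hb : b ∈ (A.P l).B) :
    Dg (Y.deg a) (φ a (A.e l i) (A.ε l i (A.κ l ((A.P l).s i b)))) := by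
  obtain ⟨-, -, -, -, -, y, hy, e, -⟩ := A.pts l i b hb
  rw [← e]
  exact ty_mem ((h.coh.form a).2.2 _ y hy)

omit [Fintype ι] in
theorem Atl.zero (A : Atl V φ g v δ F) (μ : Fin n → ℕ × ι)
    (h : ∀ l (t : ℝ), ∀ᵐ b, b ∈ (A.P l).B → top (Pd (Λ _) n (pu _ _ (pu _ _ (A.Φ l)
      fun a => Fin.append a fun i => t * A.S l a i) (A.β l) b) (fun i => c1 (A.h l i) b)
        (fun i => (μ i).1) fun i => pu _ r (φ (μ i).2 (A.e l i))
          (fun a => A.ε l i (A.κ l ((A.P l).s i a))) b) = 0) : F μ = 0 := by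
  rw [A.gw μ]
  refine Tendsto.limUnder_eq (tendsto_const_nhds.congr fun t => Eq.symm ?_)
  refine Finset.sum_eq_zero fun l _ => setIntegral_eq_zero_of_ae_eq_zero ?_
  filter_upwards [h l t] with b hb hB
  rw [hb hB, mul_zero]

theorem Atl.van (A : Atl V φ g v δ F) (h : V.Ok φ Y) (μ : Fin n → ℕ × ι)
    (hd : 2 * δ < (∑ i, (Y.deg (μ i).2 - 2) : ℕ)) : F μ = 0 := by
  refine A.zero μ fun l t => ?_
  obtain ⟨s, o, hs, hΦ⟩ := A.thom l
  obtain ⟨-, hC, -, hP, -⟩ := A.ok l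
  filter_upwards [ae_all_iff.2 fun i => fac (ε := A.ε l i) hC.1 hP i
    fun b hb => (A.pts l i b hb).2.2.2.2.1] with b hb hB
  refine (top_eq _).trans ((congrArg (P269F.top _) (van_alg
    ((hΦ _ (base_mem hC.1 hP hB)).1 _).1 _ (fun i => A.deg h (μ i).2 l i hB)
      (fun i => hb i hB) (by omega))).trans (map_zero _))

theorem Atl.even (A : Atl V φ g v δ F) (h : V.Ok φ Y) (μ : Fin n → ℕ × ι)
    (hd : ¬Even (∑ i, Y.deg (μ i).2)) : F μ = 0 := by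
  refine A.zero μ fun l t => Eventually.of_forall fun b hB => ?_
  obtain ⟨s, o, hs, hΦ⟩ := A.thom l
  obtain ⟨-, hC, -, hP, -⟩ := A.ok l
  exact (top_eq _).trans (even_alg ((hΦ _ (base_mem hC.1 hP hB)).1 _).1
    (fun i => c1_mem (A.pts l i b hB).2.2.1 (A.pts l i b hB).2.2.2.1) _
      (fun i => A.deg h (μ i).2 l i hB) hd)

/-- **block D for the compact definitions** -/
theorem bd {I : ℕ → List ℕ → MvPolynomial ℕ ℂ → ℂ} {G : ℕ → ℕ → List (ℕ × ι) → ℂ}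
    (h : V.Ok φ Y) (hG : GW V φ Y I G) (g e : ℕ) (he : 0 < e) :
    P269A.Van Y V.idx (G g e) g e ∧
      ∀ l, G g e l ≠ 0 → Even ((l.map fun i => Y.deg i.2).sum) := by
  refine ⟨fun l hl => ?_, fun l hl => ?_⟩
  · by_contra k
    obtain ⟨A⟩ := (hG g).2 e l.length he
    rw [sum_get, P269A.vd, h.dim.2] at k
    exact hl ((congrArg (G g e) (List.ofFn_get l).symm).trans (A.van h l.get (not_le.1 k)))
  · by_contra k
    obtain ⟨A⟩ := (hG g).2 e l.length he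
    rw [sum_get] at k
    exact hl ((congrArg (G g e) (List.ofFn_get l).symm).trans (A.even h l.get k))

end Vale.Agent.P269E
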